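import Vale.Agent.P134.SM.Ident
import Mathlib.Analysis.Calculus.ContDiff.Convolution
import Mathlib.Analysis.Calculus.BumpFunction.FiniteDimension
import Mathlib.Analysis.Calculus.BumpFunction.Normed

set_option linter.all false

/-! P134 / R3 assembly: a smooth mollifier with sharp gradient bounds (used for `StMET`). -/

namespace Vale.Agent.P134.H988

open Vale.Agent.P134 Vale.Agent.P134.SM MeasureTheory Set Filter Topology
open scoped Convolution ContDiff

variable {n : ℕ}

lemma esq_le_norm (z : Fin n → ℝ) : esq z ≤ n * ‖z‖ ^ 2 := by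
  unfold esq
  calc ∑ i, z i ^ 2 ≤ ∑ _i : Fin n, ‖z‖ ^ 2 := by
        refine Finset.sum_le_sum fun i _ => ?_
        have h := norm_le_pi_norm z i
        rw [Real.norm_eq_abs] at h
        rw [← sq_abs]
        exact pow_le_pow_left₀ (abs_nonneg _) h 2
    _ = n * ‖z‖ ^ 2 := by simp

lemma eno_le_norm (z : Fin n → ℝ) : eno z ≤ (n + 1) * ‖z‖ := by
  unfold eno
  apply Real.sqrt_le_iff.2
  refine ⟨by positivity, (esq_le_norm z).trans ?_⟩
  have : (0 : ℝ) ≤ n := Nat.cast_nonneg n
  nlinarith [sq_nonneg ‖z‖, mul_nonneg this (sq_nonneg ‖z‖), mul_nonneg this this]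

lemma eno_neg (z : Fin n → ℝ) : eno (-z) = eno z := by
  unfold eno esq; simp

lemma abs_dot_le (a b : Fin n → ℝ) : |∑ i, a i * b i| ≤ eno a * eno b := by
  have h := Finset.sum_mul_sq_le_sq_mul_sq Finset.univ a b
  unfold eno esq
  rw [← Real.sqrt_mul (Finset.sum_nonneg fun _ _ => sq_nonneg _)]
  exact Real.abs_le_sqrt h

lemma eno_add_le (a b : Fin n → ℝ) : eno (a + b) ≤ eno a + eno b := by
  have h1 : esq (a + b) = esq a + 2 * (∑ i, a i * b i) + esq b := by
    unfold esq
    rw [Finset.mul_sum, ← Finset.sum_add_distrib, ← Finset.sum_add_distrib]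
    refine Finset.sum_congr rfl fun i _ => ?_
    simp only [Pi.add_apply]; ring
  have h2 := (abs_le.1 (abs_dot_le a b)).2
  conv_lhs => unfold eno
  refine Real.sqrt_le_iff.2 ⟨add_nonneg (eno_nonneg _) (eno_nonneg _), ?_⟩
  rw [h1, add_sq, eno_sq, eno_sq]
  nlinarith

lemma eno_sub_le2 (a b : Fin n → ℝ) : eno (a - b) ≤ eno a + eno b := by
  rw [sub_eq_add_neg, ← eno_neg b]; exact eno_add_le a (-b)

lemma eno_smul (t : ℝ) (z : Fin n → ℝ) : eno (t • z) = |t| * eno z := by
  unfold eno esq
  have : ∑ i, (t • z) i ^ 2 = t ^ 2 * ∑ i, z i ^ 2 := by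
    rw [Finset.mul_sum]; refine Finset.sum_congr rfl fun i _ => ?_
    simp [mul_pow]
  rw [this, Real.sqrt_mul (sq_nonneg t), Real.sqrt_sq_eq_abs]

/-- gradient vector applied to itself -/
lemma fderiv_grad {f : (Fin n → ℝ) → ℝ} (x : Fin n → ℝ) :
    fderiv ℝ f x (fun i => pd i f x) = gs f x := by
  have h : (fun i => pd i f x) = ∑ i, (pd i f x) • (Pi.single i (1 : ℝ) : Fin n → ℝ) := by
    funext j
    simp [Finset.sum_apply, Pi.single_apply]
  conv_lhs => rw [h]
  rw [map_sum]
  unfold gs
  refine Finset.sum_congr rfl fun i _ => ?_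
  rw [map_smul]
  change pd i f x * pd i f x = _
  ring

lemma gs_le_of_dir {f : (Fin n → ℝ) → ℝ} {x : Fin n → ℝ} {K : ℝ} (hK : 0 ≤ K)
    (h : ∀ v, |fderiv ℝ f x v| ≤ K * eno v) : gs f x ≤ K ^ 2 := by
  have h1 := h (fun i => pd i f x)
  rw [fderiv_grad] at h1
  have h2 : eno (fun i => pd i f x) ^ 2 = gs f x := by rw [eno_sq]; rfl
  have h3 := eno_nonneg (fun i => pd i f x)
  set e := eno (fun i => pd i f x)
  have h4 : e ^ 2 ≤ K * e := by rw [h2]; exact (le_abs_self _).trans h1
  rw [← h2]
  rcases eq_or_lt_of_le h3 with h5 | h5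
  · rw [← h5]; nlinarith [sq_nonneg K]
  · have : e ≤ K := by nlinarith
    exact pow_le_pow_left₀ h3 this 2

/-- Smooth mollification at scale `s` of a bounded measurable function, with all the properties
used for truncated chain distances. -/
theorem exists_moll (n : ℕ) {s : ℝ} (hs : 0 < s) : ∃ M : ℝ, 0 ≤ M ∧
    ∀ (g : (Fin n → ℝ) → ℝ) (R : ℝ), Measurable g → (∀ x, |g x| ≤ R) →
    ∃ f : (Fin n → ℝ) → ℝ, ContDiff ℝ ∞ f ∧
      (∀ x a b, (∀ y, eno (y - x) ≤ s → a ≤ g y ∧ g y ≤ b) → a ≤ f x ∧ f x ≤ b) ∧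
      (∀ x K δ, 0 ≤ K → 0 < δ → (∀ y y', eno (y - x) ≤ s → eno (y' - x) ≤ s → eno (y - y') ≤ δ →
        |g y - g y'| ≤ K * eno (y - y')) → gs f x ≤ K ^ 2) ∧
      (∀ x, gs f x ≤ (M * R) ^ 2) := by
  set c : ℝ := s / (4 * (n + 1)) with hc
  have hn : (0 : ℝ) ≤ n := Nat.cast_nonneg n
  have hc0 : 0 < c := by positivity
  let b : ContDiffBump (0 : Fin n → ℝ) := ⟨c, 2 * c, hc0, by linarith⟩
  let μ : Measure (Fin n → ℝ) := volume
  let k : (Fin n → ℝ) → ℝ := b.normed μ
  have hk0 : ∀ x, 0 ≤ k x := fun x => b.nonneg_normed x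
  have hkI : ∫ x, k x ∂μ = 1 := b.integral_normed
  have hkC : ContDiff ℝ ∞ k := b.contDiff_normed
  have hkS : HasCompactSupport k := b.hasCompactSupport_normed
  have hkint : Integrable k μ := b.integrable_normed
  have hks : ∀ t, k t ≠ 0 → eno t ≤ s / 2 := by
    intro t ht
    have h1 : t ∈ Function.support k := ht
    rw [show Function.support k = Metric.ball 0 b.rOut from b.support_normed_eq] at h1
    rw [mem_ball_zero_iff] at h1
    have h2 : b.rOut = 2 * c := rfl
    rw [h2] at h1
    refine (eno_le_norm t).trans ?_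
    have h3 : (n + 1 : ℝ) * ‖t‖ ≤ (n + 1) * (2 * c) := by gcongr
    refine h3.trans (le_of_eq ?_)
    rw [hc]; field_simp; ring
  have hdC : Continuous (fderiv ℝ k) := hkC.continuous_fderiv (by simp)
  have hdS : HasCompactSupport (fderiv ℝ k) := hkS.fderiv ℝ
  have hdint : Integrable (fun t => ‖fderiv ℝ k t‖) μ := (hdC.integrable_of_hasCompactSupport hdS).norm
  refine ⟨(∫ t, ‖fderiv ℝ k t‖ ∂μ), integral_nonneg fun _ => norm_nonneg _, ?_⟩
  intro g R hgm hgR
  have hR0 : 0 ≤ R := (abs_nonneg _).trans (hgR 0)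
  have hgloc : LocallyIntegrable g μ := by
    refine (MeasureTheory.locallyIntegrable_const (μ := μ) R).mono hgm.aestronglyMeasurable ?_
    refine Filter.Eventually.of_forall fun x => ?_
    rw [Real.norm_eq_abs, Real.norm_eq_abs, abs_of_nonneg hR0]
    exact hgR x
  let f : (Fin n → ℝ) → ℝ := k ⋆[ContinuousLinearMap.lsmul ℝ ℝ, μ] g
  have hf : ∀ x, f x = ∫ t, k t * g (x - t) ∂μ := fun x => rfl
  have hfI : ∀ x, Integrable (fun t => k t * g (x - t)) μ := by
    intro x
    refine (hkint.mul_const R).mono' ?_ ?_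
    · exact (hkC.continuous.measurable.mul (hgm.comp (measurable_const.sub measurable_id))).aestronglyMeasurable
    · refine Filter.Eventually.of_forall fun t => ?_
      rw [Real.norm_eq_abs, abs_mul, abs_of_nonneg (hk0 t)]
      exact mul_le_mul_of_nonneg_left (hgR _) (hk0 t)
  have hfC : ContDiff ℝ ∞ f := hkS.contDiff_convolution_left _ hkC hgloc
  -- averages
  have hav : ∀ x a b, (∀ y, eno (y - x) ≤ s → a ≤ g y ∧ g y ≤ b) → a ≤ f x ∧ f x ≤ b := by
    intro x a b' hab
    have hpt : ∀ t, k t ≠ 0 → a ≤ g (x - t) ∧ g (x - t) ≤ b' := by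
      intro t ht
      refine hab _ ?_
      have : x - t - x = -t := by abel
      rw [this, eno_neg]
      linarith [hks t ht]
    rw [hf]
    constructor
    · have : a = ∫ t, k t * a ∂μ := by rw [integral_mul_const, hkI, one_mul]
      rw [this]
      refine integral_mono (hkint.mul_const a) (hfI x) fun t => ?_
      by_cases h0 : k t = 0
      · simp [h0]
      · exact mul_le_mul_of_nonneg_left (hpt t h0).1 (hk0 t)
    · have : b' = ∫ t, k t * b' ∂μ := by rw [integral_mul_const, hkI, one_mul]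
      rw [this]
      refine integral_mono (hfI x) (hkint.mul_const b') fun t => ?_
      by_cases h0 : k t = 0
      · simp [h0]
      · exact mul_le_mul_of_nonneg_left (hpt t h0).2 (hk0 t)
  refine ⟨f, hfC, hav, ?_, ?_⟩
  · intro x K δ hK hδ hl
    refine gs_le_of_dir hK fun v => ?_
    have hd : HasDerivAt (fun t : ℝ => f (x + t • v)) (fderiv ℝ f x v) 0 := by
      have h1 : HasFDerivAt f (fderiv ℝ f x) (x + (0 : ℝ) • v) := by
        rw [zero_smul, add_zero]
        exact (hfC.differentiable (by simp) x).hasFDerivAt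
      have h2 : HasDerivAt (fun t : ℝ => x + t • v) v 0 := by
        simpa using ((hasDerivAt_id (0 : ℝ)).smul_const v).const_add x
      exact h1.comp_hasDerivAt (0 : ℝ) h2
    have hev : ∀ᶠ t : ℝ in 𝓝 0, ‖f (x + t • v) - f (x + (0 : ℝ) • v)‖ ≤ K * eno v * ‖t - 0‖ := by
      have hη : 0 < min (s / 2) δ / (eno v + 1) := by
        have := eno_nonneg v
        have h3 : 0 < min (s / 2) δ := lt_min (by linarith) hδ
        positivity
      filter_upwards [Metric.ball_mem_nhds (0 : ℝ) hη] with t ht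
      rw [mem_ball_zero_iff, Real.norm_eq_abs] at ht
      have hte : |t| * eno v ≤ min (s / 2) δ := by
        have h0 := eno_nonneg v
        have h4 : |t| * (eno v + 1) ≤ min (s / 2) δ := by
          rw [lt_div_iff₀ (by linarith)] at ht; exact ht.le
        nlinarith [abs_nonneg t]
      rw [zero_smul, add_zero, sub_zero, Real.norm_eq_abs, Real.norm_eq_abs, hf, hf,
        ← integral_sub (hfI _) (hfI _)]
      have hb : ∀ t', |k t' * g (x + t • v - t') - k t' * g (x - t')| ≤ k t' * (K * (|t| * eno v)) := by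
        intro t'
        rw [← mul_sub, abs_mul, abs_of_nonneg (hk0 t')]
        by_cases h0 : k t' = 0
        · simp [h0]
        · refine mul_le_mul_of_nonneg_left ?_ (hk0 t')
          have h5 := hks t' h0
          have e1 : x + t • v - t' - x = t • v - t' := by abel
          have e2 : x - t' - x = -t' := by abel
          have e3 : x + t • v - t' - (x - t') = t • v := by abel
          have h6 := hl (x + t • v - t') (x - t') ?_ ?_ ?_
          · rw [e3, eno_smul] at h6; exact h6
          · rw [e1]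
            have : eno (t • v - t') ≤ eno (t • v) + eno t' := eno_sub_le2 _ _
            rw [eno_smul] at this
            have := min_le_left (s / 2) δ
            linarith
          · rw [e2, eno_neg]; linarith
          · rw [e3, eno_smul]; exact hte.trans (min_le_right _ _)
      calc |∫ t', (k t' * g (x + t • v - t') - k t' * g (x - t')) ∂μ|
          ≤ ∫ t', |k t' * g (x + t • v - t') - k t' * g (x - t')| ∂μ := abs_integral_le_integral_abs
        _ ≤ ∫ t', k t' * (K * (|t| * eno v)) ∂μ :=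
            integral_mono ((hfI _).sub (hfI _)).abs (hkint.mul_const _) hb
        _ = K * eno v * |t| := by rw [integral_mul_const, hkI]; ring
    have := hd.le_of_lip' (mul_nonneg hK (eno_nonneg v)) hev
    rwa [Real.norm_eq_abs] at this
  · intro x
    refine gs_le_of_dir (mul_nonneg (integral_nonneg fun _ => norm_nonneg _) hR0) fun v => ?_
    have h1 : HasFDerivAt f ((fderiv ℝ k ⋆[(ContinuousLinearMap.lsmul ℝ ℝ).precompL (Fin n → ℝ), μ] g) x) x :=
      hkS.hasFDerivAt_convolution_left _ (hkC.of_le (by simp)) hgloc x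
    rw [h1.fderiv]
    have hI : Integrable (fun t => (((ContinuousLinearMap.lsmul ℝ ℝ).precompL (Fin n → ℝ))
        (fderiv ℝ k t)) (g (x - t))) μ := by
      have := hdS.convolutionExists_left ((ContinuousLinearMap.lsmul ℝ ℝ).precompL (Fin n → ℝ))
        hdC hgloc x
      exact this
    have h2 : ((fderiv ℝ k ⋆[(ContinuousLinearMap.lsmul ℝ ℝ).precompL (Fin n → ℝ), μ] g) x) v
        = ∫ t, fderiv ℝ k t v * g (x - t) ∂μ := by
      unfold MeasureTheory.convolution
      rw [ContinuousLinearMap.integral_apply hI]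
      rfl
    rw [h2]
    have h3 : Integrable (fun t => fderiv ℝ k t v * g (x - t)) μ := by
      have := hI.apply_continuousLinearMap v
      exact this
    calc |∫ t, fderiv ℝ k t v * g (x - t) ∂μ| ≤ ∫ t, |fderiv ℝ k t v * g (x - t)| ∂μ :=
          abs_integral_le_integral_abs
      _ ≤ ∫ t, ‖fderiv ℝ k t‖ * (R * eno v) ∂μ := by
          refine integral_mono h3.abs (hdint.mul_const _) fun t => ?_
          change |fderiv ℝ k t v * g (x - t)| ≤ _
          rw [abs_mul]
          have h4 : |fderiv ℝ k t v| ≤ ‖fderiv ℝ k t‖ * eno v := by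
            rw [← Real.norm_eq_abs]
            exact ((fderiv ℝ k t).le_opNorm v).trans
              (mul_le_mul_of_nonneg_left (norm_le_eno v) (norm_nonneg _))
          calc |fderiv ℝ k t v| * |g (x - t)| ≤ (‖fderiv ℝ k t‖ * eno v) * R :=
                mul_le_mul h4 (hgR _) (abs_nonneg _) (mul_nonneg (norm_nonneg _) (eno_nonneg _))
            _ = _ := by ring
      _ = (∫ t, ‖fderiv ℝ k t‖ ∂μ) * R * eno v := by rw [integral_mul_const]; ring

end Vale.Agent.P134.H988
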