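import Vale.Agent.P134.ASM.Defs
import Vale.Agent.P134.H988.Met

set_option linter.all false

/-! P134 / R3 assembly: proof of `ASM.StMET`. -/

namespace Vale.Agent.P134.H988

open Vale.Agent.P134 Vale.Agent.P134.SM Vale.Agent.P134.ASM MeasureTheory Set Filter Topology
open scoped ContDiff

variable {p : (Fin 3 → ℝ) → ℝ} {B : Set (Fin 3 → ℝ)} {S L r T : ℝ}

lemma eno_comm3 {n : ℕ} (a b : Fin n → ℝ) : eno (a - b) = eno (b - a) := by
  rw [← eno_neg, neg_sub]

lemma eno_tri3 {n : ℕ} (a b c : Fin n → ℝ) : eno (a - c) ≤ eno (a - b) + eno (b - c) := by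
  have : a - c = (a - b) + (b - c) := by abel
  rw [this]; exact eno_add_le _ _

/-- a `C¹` function with `|Df| ≤ 1` is 1-Lipschitz. -/
lemma lip_of_gs {n : ℕ} {f : (Fin n → ℝ) → ℝ} (hf : Differentiable ℝ f) (hg : ∀ x, gs f x ≤ 1)
    (x y : Fin n → ℝ) : |f y - f x| ≤ eno (y - x) := by
  have hd : ∀ t, HasDerivAt (fun s : ℝ => f (x + s • (y - x)))
      (∑ i, (y - x) i * pd i f (x + t • (y - x))) t := by
    intro t
    have h := hasDerivAt_dir (w := f) (x := x) (v := y - x) (s := t) (hf _)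
    rw [fderiv_eq_sum_pd] at h
    exact h
  have hb : ∀ t ∈ Set.Icc (0:ℝ) 1, ‖∑ i, (y - x) i * pd i f (x + t • (y - x))‖ ≤ eno (y - x) := by
    intro t _
    rw [Real.norm_eq_abs]
    refine (abs_dot_le _ _).trans ?_
    have : eno (fun i => pd i f (x + t • (y - x))) ≤ 1 := by
      unfold eno; exact Real.sqrt_le_one.2 (hg _)
    exact mul_le_of_le_one_right (eno_nonneg _) this
  have h := (convex_Icc (0:ℝ) 1).norm_image_sub_le_of_norm_hasDerivWithin_le
    (f := fun s : ℝ => f (x + s • (y - x))) (fun t _ => (hd t).hasDerivWithinAt) hb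
    (left_mem_Icc.2 zero_le_one) (right_mem_Icc.2 zero_le_one)
  simpa using h

lemma clen_nonneg (m : ℕ) (c : ℕ → Fin 3 → ℝ) : 0 ≤ clen m c :=
  Finset.sum_nonneg fun _ _ => eno_nonneg _

lemma clen_ge (m : ℕ) (c : ℕ → Fin 3 → ℝ) : eno (c m - c 0) ≤ clen m c := by
  induction m with
  | zero => simp [clen, eno, esq]
  | succ k ih =>
    have h1 : clen (k + 1) c = clen k c + eno (c (k + 1) - c k) := by
      unfold clen; rw [Finset.sum_range_succ]
    have h2 := eno_tri3 (c (k + 1)) (c k) (c 0)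
    rw [h1]; linarith

/-- the set of lengths -/
def CS (p : (Fin 3 → ℝ) → ℝ) (B : Set (Fin 3 → ℝ)) (S L r T : ℝ) (x : Fin 3 → ℝ) : Set ℝ :=
  insert T {l | ∃ (m : ℕ) (c : ℕ → (Fin 3 → ℝ)), IsCh p B S L r m c ∧ c m = x ∧ l = clen m c}

lemma chd_eq (x : Fin 3 → ℝ) : chd p B S L r T x = sInf (CS p B S L r T x) := rfl

lemma CS_nonempty (x : Fin 3 → ℝ) : (CS p B S L r T x).Nonempty := ⟨T, mem_insert _ _⟩

lemma CS_nonneg (hT : 0 < T) (x : Fin 3 → ℝ) : ∀ l ∈ CS p B S L r T x, 0 ≤ l := by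
  rintro l (rfl | ⟨m, c, -, -, rfl⟩)
  · exact hT.le
  · exact clen_nonneg _ _

lemma CS_bdd (hT : 0 < T) (x : Fin 3 → ℝ) : BddBelow (CS p B S L r T x) := ⟨0, CS_nonneg hT x⟩

lemma chd_nonneg (hT : 0 < T) (x : Fin 3 → ℝ) : 0 ≤ chd p B S L r T x :=
  le_csInf (CS_nonempty x) (CS_nonneg hT x)

lemma chd_le_T (hT : 0 < T) (x : Fin 3 → ℝ) : chd p B S L r T x ≤ T :=
  csInf_le (CS_bdd hT x) (mem_insert _ _)

lemma chd_le_len (hT : 0 < T) {x : Fin 3 → ℝ} {m : ℕ} {c : ℕ → (Fin 3 → ℝ)}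
    (h : IsCh p B S L r m c) (hx : c m = x) : chd p B S L r T x ≤ clen m c :=
  csInf_le (CS_bdd hT x) (mem_insert_of_mem _ ⟨m, c, h, hx, rfl⟩)

lemma exists_of_chd_lt {x : Fin 3 → ℝ} {a : ℝ} (ha : a ≤ T) (h : chd p B S L r T x < a) :
    ∃ (m : ℕ) (c : ℕ → (Fin 3 → ℝ)), IsCh p B S L r m c ∧ c m = x ∧ clen m c < a := by
  rw [chd_eq] at h
  obtain ⟨l, hl, hla⟩ := exists_lt_of_csInf_lt (CS_nonempty x) h
  rcases hl with rfl | ⟨m, c, h1, h2, rfl⟩
  · exact absurd hla (not_lt.2 ha)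
  · exact ⟨m, c, h1, h2, hla⟩

lemma chd_off (hT : 0 < T) {x : Fin 3 → ℝ} (hx : S < |p x|) : chd p B S L r T x = T := by
  refine le_antisymm (chd_le_T hT x) (le_csInf (CS_nonempty x) ?_)
  rintro l (rfl | ⟨m, c, h, hx', rfl⟩)
  · exact le_rfl
  · have := h.slab m le_rfl
    rw [hx'] at this
    linarith

lemma chd_source (hT : 0 < T) {x : Fin 3 → ℝ} (hx : |p x| ≤ S) (hb : ∃ b ∈ B, eno (x - b) ≤ L) :
    chd p B S L r T x = 0 := by
  refine le_antisymm ?_ (chd_nonneg hT x)
  have h : IsCh p B S L r 0 (fun _ => x) := ⟨hb, fun _ _ => hx, fun i hi => by omega⟩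
  have := chd_le_len (T := T) hT h rfl
  simpa [clen] using this

lemma chd_step (hT : 0 < T) {x y : Fin 3 → ℝ} (hy : |p y| ≤ S) (hxy : eno (y - x) ≤ r) :
    chd p B S L r T y ≤ chd p B S L r T x + eno (y - x) := by
  have h0 := eno_nonneg (y - x)
  rw [← sub_le_iff_le_add]
  refine le_csInf (CS_nonempty x) ?_
  rintro l (rfl | ⟨m, c, h, hx', rfl⟩)
  · have := chd_le_T (p := p) (B := B) (S := S) (L := L) (r := r) hT y
    linarith
  · let c' : ℕ → (Fin 3 → ℝ) := fun k => if k ≤ m then c k else y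
    have hc' : ∀ k, k ≤ m → c' k = c k := fun k hk => by simp [c', hk]
    have hcm : c' (m + 1) = y := by simp [c']
    have hch : IsCh p B S L r (m + 1) c' := by
      refine ⟨?_, ?_, ?_⟩
      · rw [hc' 0 (Nat.zero_le _)]; exact h.start
      · intro k hk
        rcases Nat.lt_or_ge m k with hk' | hk'
        · have : k = m + 1 := by omega
          rw [this, hcm]; exact hy
        · rw [hc' k hk']; exact h.slab k hk'
      · intro k hk
        rcases Nat.lt_or_ge k m with hk' | hk'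
        · rw [hc' k hk'.le, hc' (k + 1) hk']; exact h.step k hk'
        · have : k = m := by omega
          rw [this, hcm, hc' m le_rfl, hx']; exact hxy
    have h1 := chd_le_len (T := T) hT hch hcm
    have h2 : clen (m + 1) c' = clen m c + eno (y - x) := by
      unfold clen
      rw [Finset.sum_range_succ, hcm, hc' m le_rfl, hx']
      congr 1
      refine Finset.sum_congr rfl fun k hk => ?_
      have := Finset.mem_range.1 hk
      rw [hc' k this.le, hc' (k + 1) this]
    rw [h2] at h1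
    linarith

lemma chd_lip (hT : 0 < T) {x y : Fin 3 → ℝ} (hx : |p x| ≤ S) (hy : |p y| ≤ S)
    (hxy : eno (x - y) ≤ r) :
    |chd p B S L r T x - chd p B S L r T y| ≤ eno (x - y) := by
  have h1 := chd_step (p := p) (B := B) (L := L) hT hx hxy
  have h2 := chd_step (p := p) (B := B) (L := L) hT hy ((eno_comm3 y x).trans_le hxy)
  rw [eno_comm3 y x] at h2
  rw [abs_le]; constructor <;> linarith

lemma chd_continuousOn (hT : 0 < T) (hr : 0 < r) :
    ContinuousOn (chd p B S L r T) {x | |p x| ≤ S} := by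
  rw [Metric.continuousOn_iff]
  intro x hx ε hε
  refine ⟨min ε r / 5, by positivity, fun y hy hd => ?_⟩
  rw [dist_eq_norm] at hd
  have h1 : eno (y - x) ≤ 4 * ‖y - x‖ := by
    have := eno_le_norm (y - x)
    norm_num at this
    exact this
  have h2 : eno (y - x) < min ε r := by
    have h4 : 0 < min ε r := lt_min hε hr
    linarith
  rw [Real.dist_eq]
  exact (chd_lip hT hy hx (h2.le.trans (min_le_right _ _))).trans_lt (h2.trans_le (min_le_left _ _))

open Classical in
lemma chd_measurable (hp : Continuous p) (hT : 0 < T) (hr : 0 < r) :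
    Measurable (chd p B S L r T) := by
  have hS : IsClosed {x | |p x| ≤ S} := isClosed_le hp.abs continuous_const
  have h2 : chd p B S L r T = {x | |p x| ≤ S}.piecewise (chd p B S L r T) (fun _ => T) := by
    funext x
    by_cases hx : x ∈ {x | |p x| ≤ S}
    · rw [Set.piecewise_eq_of_mem _ _ _ hx]
    · rw [Set.piecewise_eq_of_notMem _ _ _ hx]
      exact chd_off hT (by simpa using hx)
  rw [h2]
  exact (chd_continuousOn hT hr).measurable_piecewise continuousOn_const hS.measurableSet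

theorem stMET : StMET := by
  intro p hp hg B hB S L r T hS hL hr hT
  have hr0 : 0 < r := by linarith
  have hpc : Continuous p := hp.continuous
  have hpd : Differentiable ℝ p := hp.differentiable (by norm_num)
  have hm := chd_measurable (p := p) (B := B) (S := S) (L := L) (r := r) hpc hT hr0
  refine ⟨hm, fun x => ⟨chd_nonneg hT x, chd_le_T hT x⟩, ?_, ?_⟩
  · intro x R hR hx hfar
    obtain ⟨m, c, hc, hcx, hl⟩ := exists_of_chd_lt hR hx
    obtain ⟨b, hb, hb2⟩ := hc.start
    have h1 := clen_ge m c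
    rw [hcx] at h1
    have h2 := hfar b hb
    have h3 := eno_tri3 x (c 0) b
    linarith
  obtain ⟨M, hM, hmoll⟩ := exists_moll 3 (s := 1 / 4) (by norm_num)
  obtain ⟨f, h1, h2, h3, h4⟩ := hmoll (chd p B S L r T) T hm
    (fun x => by rw [abs_of_nonneg (chd_nonneg hT x)]; exact chd_le_T hT x)
  have hin : ∀ x, |p x| ≤ S - 1 / 4 → ∀ y, eno (y - x) ≤ 1 / 4 → |p y| ≤ S := by
    intro x hx y hy
    have h5 := lip_of_gs hpd hg x y
    have h6 : |p y| ≤ |p x| + |p y - p x| := by
      have := abs_add_le (p x) (p y - p x)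
      rwa [add_sub_cancel] at this
    linarith
  refine ⟨f, h1.of_le (by exact_mod_cast le_top), fun x => h2 x 0 T fun y _ => ⟨chd_nonneg hT y, chd_le_T hT y⟩,
    ⟨(M * T) ^ 2, h4⟩, ?_, ?_, ?_⟩
  · intro x hx
    have := h3 x 1 r zero_le_one hr0 fun y y' hy hy' hyy => by
      rw [one_mul]
      exact chd_lip hT (hin x hx y hy) (hin x hx y' hy') hyy
    simpa using this
  · intro x hx
    have hx3 : |p x| ≤ S := by linarith
    obtain ⟨h5, h6⟩ := h2 x (chd p B S L r T x - 1 / 4) (chd p B S L r T x + 1 / 4) fun y hy => by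
      have hy3 := hin x hx y hy
      have hyr : eno (y - x) ≤ r := by linarith
      have := abs_le.1 (chd_lip (B := B) (L := L) hT hy3 hx3 hyr)
      constructor <;> linarith [this.1, this.2]
    rw [abs_le]; constructor <;> linarith
  · intro x hx hnf
    unfold LI.Far at hnf
    push Not at hnf
    obtain ⟨b, hb, hxb⟩ := hnf
    have h0 : ∀ y, eno (y - x) ≤ 1 / 4 → 0 ≤ chd p B S L r T y ∧ chd p B S L r T y ≤ 0 := by
      intro y hy
      have hyb : eno (y - b) ≤ L := (eno_tri3 y x b).trans (by linarith)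
      rw [chd_source hT (hin x hx y hy) ⟨b, hb, hyb⟩]
      simp
    exact le_antisymm (h2 x 0 0 h0).2 (h2 x 0 0 h0).1

end Vale.Agent.P134.H988
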