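import Vale.Agent.P134.R3.Phi
import Vale.Agent.P134.H988.Met

set_option linter.all false

/-! P134 / R3 assembly: the truncated chain distance and its mollification (`StMET`). -/

namespace Vale.Agent.P134.H988

open Vale.Agent.P134 Vale.Agent.P134.R3 MeasureTheory Set Filter Topology
open scoped ENNReal ContDiff

variable {φ : V3 → ℝ} {r0 L : ℝ} {B : Set V3}

lemma eno_zero3 : eno (0 : V3) = 0 := by unfold eno esq; simp

/-- one more step -/
lemma rch_step {x y : V3} (hy : |φ y| ≤ 3) (hxy : eno (y - x) ≤ r0) :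
    rch φ r0 L B y ≤ rch φ r0 L B x + ENNReal.ofReal (eno (y - x)) := by
  unfold rch
  conv_rhs => rw [ENNReal.iInf_add]
  refine le_iInf fun m => ?_
  rw [ENNReal.iInf_add]
  refine le_iInf fun p => ?_
  rw [ENNReal.iInf_add]
  refine le_iInf fun hp => ?_
  obtain ⟨⟨h1, h2, h3⟩, h4⟩ := hp
  let p' : ℕ → V3 := fun k => if k ≤ m then p k else y
  have hp' : ∀ k, k ≤ m → p' k = p k := fun k hk => by simp [p', hk]
  have hpm : p' (m + 1) = y := by simp [p']
  have hch : IsCh φ r0 L B (m + 1) p' ∧ p' (m + 1) = y := by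
    refine ⟨⟨?_, ?_, ?_⟩, hpm⟩
    · rw [hp' 0 (Nat.zero_le _)]; exact h1
    · intro k hk
      rcases Nat.lt_or_ge m k with hk' | hk'
      · have : k = m + 1 := by omega
        rw [this, hpm]; exact hy
      · rw [hp' k hk']; exact h2 k hk'
    · intro k hk
      rcases Nat.lt_or_ge k m with hk' | hk'
      · rw [hp' k hk'.le, hp' (k + 1) hk']; exact h3 k hk'
      · have : k = m := by omega
        rw [this, hpm, hp' m le_rfl, h4]; exact hxy
  refine (iInf_le_of_le (m + 1) (iInf_le_of_le p' (iInf_le_of_le hch ?_)))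
  rw [Finset.sum_range_succ, ENNReal.ofReal_add (Finset.sum_nonneg fun _ _ => eno_nonneg _)
    (eno_nonneg _)]
  refine add_le_add (le_of_eq ?_) (le_of_eq ?_)
  · congr 1
    refine Finset.sum_congr rfl fun k hk => ?_
    have := Finset.mem_range.1 hk
    rw [hp' k this.le, hp' (k + 1) this]
  · rw [hpm, hp' m le_rfl, h4]

lemma rch_source {x : V3} (hx : |φ x| ≤ 3) (hb : ∃ b ∈ B, eno (x - b) ≤ 2 * L) :
    rch φ r0 L B x = 0 := by
  unfold rch
  refine le_antisymm ?_ bot_le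
  refine (iInf_le_of_le 0 (iInf_le_of_le (fun _ => x) (iInf_le_of_le ⟨⟨hb, ?_, ?_⟩, rfl⟩ ?_)))
  · intro k _; exact hx
  · intro k hk; omega
  · simp

lemma rch_top {x : V3} (hx : 3 < |φ x|) : rch φ r0 L B x = ⊤ := by
  unfold rch
  refine iInf_eq_top.2 fun m => iInf_eq_top.2 fun p => iInf_eq_top.2 fun hp => ?_
  obtain ⟨⟨h1, h2, h3⟩, h4⟩ := hp
  have := h2 m le_rfl
  rw [h4] at this
  linarith

/-- truncated chain distance -/
noncomputable def rt (φ : V3 → ℝ) (r0 L : ℝ) (B : Set V3) (R : ℝ) (x : V3) : ℝ :=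
  (min (rch φ r0 L B x) (ENNReal.ofReal R)).toReal

lemma rt_nonneg (R : ℝ) (x : V3) : 0 ≤ rt φ r0 L B R x := ENNReal.toReal_nonneg

lemma min_ne_top (R : ℝ) (x : V3) : min (rch φ r0 L B x) (ENNReal.ofReal R) ≠ ⊤ :=
  ne_top_of_le_ne_top ENNReal.ofReal_ne_top (min_le_right _ _)

lemma rt_le {R : ℝ} (hR : 0 ≤ R) (x : V3) : rt φ r0 L B R x ≤ R := by
  unfold rt
  calc _ ≤ (ENNReal.ofReal R).toReal := ENNReal.toReal_mono ENNReal.ofReal_ne_top (min_le_right _ _)
    _ = R := ENNReal.toReal_ofReal hR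

/-- `rt = ρ` where `ρ ≤ R` and `rt = R` where `ρ ≥ R`. -/
lemma rt_eq {R : ℝ} {x : V3} (h : rch φ r0 L B x ≤ ENNReal.ofReal R) :
    rt φ r0 L B R x = (rch φ r0 L B x).toReal := by
  unfold rt; rw [min_eq_left h]

lemma rt_eq' {R : ℝ} (hR : 0 ≤ R) {x : V3} (h : ENNReal.ofReal R ≤ rch φ r0 L B x) :
    rt φ r0 L B R x = R := by
  unfold rt; rw [min_eq_right h, ENNReal.toReal_ofReal hR]

lemma rt_of_ne_top {R : ℝ} (hR : 0 ≤ R) {x : V3} (h : rch φ r0 L B x ≠ ⊤) :
    rt φ r0 L B R x = min (rch φ r0 L B x).toReal R := by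
  rcases le_total (rch φ r0 L B x) (ENNReal.ofReal R) with h1 | h1
  · rw [rt_eq h1, min_eq_left]
    have := ENNReal.toReal_mono ENNReal.ofReal_ne_top h1
    rwa [ENNReal.toReal_ofReal hR] at this
  · rw [rt_eq' hR h1, min_eq_right]
    have := ENNReal.toReal_mono h h1
    rwa [ENNReal.toReal_ofReal hR] at this

lemma rt_step {R : ℝ} {x y : V3} (hy : |φ y| ≤ 3) (hxy : eno (y - x) ≤ r0) :
    rt φ r0 L B R y ≤ rt φ r0 L B R x + eno (y - x) := by
  have h := rch_step (L := L) (B := B) hy hxy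
  have h2 : min (rch φ r0 L B y) (ENNReal.ofReal R) ≤
      min (rch φ r0 L B x) (ENNReal.ofReal R) + ENNReal.ofReal (eno (y - x)) := by
    rcases le_total (rch φ r0 L B x) (ENNReal.ofReal R) with h1 | h1
    · rw [min_eq_left h1]; exact (min_le_left _ _).trans h
    · rw [min_eq_right h1]; exact (min_le_right _ _).trans le_self_add
  unfold rt
  have h3 := ENNReal.toReal_mono (ENNReal.add_ne_top.2 ⟨min_ne_top R x, ENNReal.ofReal_ne_top⟩) h2
  rwa [ENNReal.toReal_add (min_ne_top R x) ENNReal.ofReal_ne_top,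
    ENNReal.toReal_ofReal (eno_nonneg _)] at h3

lemma rt_lip {R : ℝ} {x y : V3} (hx : |φ x| ≤ 3) (hy : |φ y| ≤ 3) (hxy : eno (x - y) ≤ r0) :
    |rt φ r0 L B R x - rt φ r0 L B R y| ≤ eno (x - y) := by
  have h1 := rt_step (L := L) (B := B) (R := R) hx hxy
  have h2 := rt_step (L := L) (B := B) (R := R) hy ((eno_sub_comm y x).trans_le hxy)
  rw [eno_sub_comm y x] at h2
  rw [abs_le]; constructor <;> linarith

/-- zero extension of `rt` off the slab. -/
noncomputable def rz (φ : V3 → ℝ) (r0 L : ℝ) (B : Set V3) (R : ℝ) (x : V3) : ℝ :=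
  {x | |φ x| ≤ 3}.indicator (rt φ r0 L B R) x

lemma rt_continuousOn (hr : 0 < r0) (R : ℝ) : ContinuousOn (rt φ r0 L B R) {x | |φ x| ≤ 3} := by
  rw [Metric.continuousOn_iff]
  intro x hx ε hε
  refine ⟨min ε r0 / 5, by positivity, fun y hy hd => ?_⟩
  rw [dist_eq_norm] at hd
  have h1 : eno (y - x) ≤ 4 * ‖y - x‖ := by
    have := eno_le_norm (y - x)
    norm_num at this
    exact this
  have h2 : eno (y - x) < min ε r0 := by
    have h4 : 0 < min ε r0 := lt_min hε hr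
    linarith
  rw [Real.dist_eq]
  exact (rt_lip hy hx (h2.le.trans (min_le_right _ _))).trans_lt (h2.trans_le (min_le_left _ _))

lemma rz_measurable (hφ : Continuous φ) (hr : 0 < r0) (R : ℝ) : Measurable (rz φ r0 L B R) := by
  have hS : IsClosed {x | |φ x| ≤ 3} := isClosed_le hφ.abs continuous_const
  have h := (rt_continuousOn (φ := φ) (L := L) (B := B) hr R)
  classical
  have h2 : rz φ r0 L B R = {x | |φ x| ≤ 3}.piecewise (rt φ r0 L B R) (fun _ => 0) := by
    funext x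
    unfold rz
    by_cases hx : x ∈ {x | |φ x| ≤ 3}
    · rw [Set.indicator_of_mem hx, Set.piecewise_eq_of_mem _ _ _ hx]
    · rw [Set.indicator_of_notMem hx, Set.piecewise_eq_of_notMem _ _ _ hx]
  rw [h2]
  exact h.measurable_piecewise continuousOn_const hS.measurableSet

lemma rz_eq {R : ℝ} {x : V3} (hx : |φ x| ≤ 3) : rz φ r0 L B R x = rt φ r0 L B R x :=
  Set.indicator_of_mem (s := {x | |φ x| ≤ 3}) hx _

lemma rz_eq_zero {R : ℝ} {x : V3} (hx : 3 < |φ x|) : rz φ r0 L B R x = 0 :=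
  Set.indicator_of_notMem (s := {x | |φ x| ≤ 3}) (by simpa using hx) _

lemma rz_nonneg (R : ℝ) (x : V3) : 0 ≤ rz φ r0 L B R x :=
  Set.indicator_nonneg (fun x _ => rt_nonneg R x) x

lemma rz_le {R : ℝ} (hR : 0 ≤ R) (x : V3) : rz φ r0 L B R x ≤ R := by
  rcases le_or_gt |φ x| 3 with h | h
  · rw [rz_eq h]; exact rt_le hR x
  · rw [rz_eq_zero h]; exact hR

/-- measurability of the chain distance (on the slab it is locally Lipschitz, off it `⊤`). -/
lemma rch_measurable (hφ : Continuous φ) (hr : 0 < r0) : Measurable (rch φ r0 L B) := by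
  have hS : IsClosed {x | |φ x| ≤ 3} := isClosed_le hφ.abs continuous_const
  classical
  have h2 : rch φ r0 L B = fun x => ⨆ N : ℕ, {x | |φ x| ≤ 3}.piecewise
      (fun x => ENNReal.ofReal (rt φ r0 L B N x)) (fun _ => ⊤) x := by
    funext x
    by_cases hx : x ∈ {x | |φ x| ≤ 3}
    · have h3 : ∀ N : ℕ, {x | |φ x| ≤ 3}.piecewise
          (fun x => ENNReal.ofReal (rt φ r0 L B N x)) (fun _ => ⊤) x
          = rch φ r0 L B x ⊓ (N : ℝ≥0∞) := by
        intro N
        rw [Set.piecewise_eq_of_mem _ _ _ hx]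
        unfold rt
        rw [ENNReal.ofReal_toReal (min_ne_top _ _), ENNReal.ofReal_natCast]
      simp_rw [h3]
      rw [← inf_iSup_eq, ENNReal.iSup_natCast, inf_top_eq]
    · have h3 : ∀ N : ℕ, {x | |φ x| ≤ 3}.piecewise
          (fun x => ENNReal.ofReal (rt φ r0 L B N x)) (fun _ => ⊤) x = ⊤ := by
        intro N
        rw [Set.piecewise_eq_of_notMem _ _ _ hx]
      simp_rw [h3]
      rw [rch_top (by simpa using hx)]
      simp
  rw [h2]
  refine Measurable.iSup fun N => ?_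
  refine ContinuousOn.measurable_piecewise ?_ continuousOn_const hS.measurableSet
  exact ENNReal.continuous_ofReal.comp_continuousOn (rt_continuousOn hr N)

/-- **StMET**: a smooth function comparable with the truncated chain distance, with sharp
gradient bound in the slightly smaller slab. -/
theorem exists_metric {s : ℝ} (hs : 0 < s) : ∃ M : ℝ, 0 ≤ M ∧
    ∀ (φ : V3 → ℝ) (r0 L : ℝ) (B : Set V3) (R : ℝ), Differentiable ℝ φ → (∀ x, SM.gs φ x ≤ 1) →
      0 < r0 → 0 ≤ R →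
    ∃ rs : V3 → ℝ, ContDiff ℝ ∞ rs ∧ (∀ x, 0 ≤ rs x ∧ rs x ≤ R) ∧
      (∀ x, |φ x| ≤ 3 - s → SM.gs rs x ≤ 1) ∧
      (∀ x, SM.gs rs x ≤ (M * R) ^ 2) ∧
      (s ≤ r0 → ∀ x, |φ x| ≤ 3 - s → |rs x - rt φ r0 L B R x| ≤ s) ∧
      (∀ x, (∃ b ∈ B, eno (x - b) ≤ 2 * L - s) → rs x = 0) := by
  obtain ⟨M, hM, hmoll⟩ := exists_moll 3 hs
  refine ⟨M, hM, fun φ r0 L B R hφ hg hr hR => ?_⟩
  obtain ⟨f, h1, h2, h3, h4⟩ := hmoll (rz φ r0 L B R) R (rz_measurable hφ.continuous hr R)
    (fun x => by rw [abs_of_nonneg (rz_nonneg R x)]; exact rz_le hR x)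
  have hin : ∀ x, |φ x| ≤ 3 - s → ∀ y, eno (y - x) ≤ s → |φ y| ≤ 3 := by
    intro x hx y hy
    have h5 := abs_sub_le_eno hφ hg x y
    have h6 : |φ y| ≤ |φ x| + |φ y - φ x| := by
      have := abs_add_le (φ x) (φ y - φ x)
      rwa [add_sub_cancel] at this
    linarith
  refine ⟨f, h1, fun x => h2 x 0 R fun y _ => ⟨rz_nonneg R y, rz_le hR y⟩, ?_, h4, ?_, ?_⟩
  · intro x hx
    have := h3 x 1 r0 zero_le_one hr fun y y' hy hy' hyy => by
      rw [rz_eq (hin x hx y hy), rz_eq (hin x hx y' hy'), one_mul]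
      exact rt_lip (hin x hx y hy) (hin x hx y' hy') hyy
    simpa using this
  · intro hsr x hx
    have hx3 : |φ x| ≤ 3 := by linarith
    obtain ⟨h5, h6⟩ := h2 x (rt φ r0 L B R x - s) (rt φ r0 L B R x + s) fun y hy => by
      have hy3 := hin x hx y hy
      rw [rz_eq hy3]
      have := abs_le.1 (rt_lip (L := L) (B := B) (R := R) hy3 hx3 (hy.trans hsr))
      constructor <;> linarith [this.1, this.2]
    rw [abs_le]; constructor <;> linarith
  · intro x ⟨b, hb, hxb⟩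
    have h0 : ∀ y, eno (y - x) ≤ s → 0 ≤ rz φ r0 L B R y ∧ rz φ r0 L B R y ≤ 0 := by
      intro y hy
      rcases le_or_gt |φ y| 3 with h | h
      · have hyb : eno (y - b) ≤ 2 * L := (eno_sub_le y x b).trans (by linarith)
        rw [rz_eq h, rt, rch_source h ⟨b, hb, hyb⟩]
        simp
      · rw [rz_eq_zero h]; simp
    exact le_antisymm (h2 x 0 0 h0).2 (h2 x 0 0 h0).1

end Vale.Agent.P134.H988
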